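import Vale.Agent.P275S.Mvg

/-!
# P275, the Tate trick: the covering by the logarithms of a function
-/

open scoped Real
open Set Function CategoryTheory Topology
open P275S (H pb)

noncomputable section

set_option backward.isDefEq.respectTransparency false

namespace Vale.Agent.P275TT

/-- the exponential -/
def ex (z : ℂ) : ℂ := Complex.exp (2 * π * Complex.I * z)

theorem ex_add_one (z : ℂ) : ex (z + 1) = ex z := by
  rw [ex, mul_add, mul_one, Complex.exp_add, Complex.exp_two_pi_mul_I, mul_one, ex]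

theorem ex_zero : ex 0 = 1 := by rw [ex, mul_zero, Complex.exp_zero]

theorem cont_ex : Continuous ex := by unfold ex; fun_prop

theorem ex_eq_iff {z z' : ℂ} : ex z = ex z' ↔ ∃ k : ℤ, z = z' + k := by
  rw [ex, ex, Complex.exp_eq_exp_iff_exists_int]
  refine exists_congr fun k => ⟨fun h => ?_, fun h => by rw [h]; ring⟩
  exact mul_left_cancel₀ Complex.two_pi_I_ne_zero (by rw [h]; ring)

variable {T : TopCat.{0}} (w : T → ℂ) {P Q : Set ℂ}

/-- the logarithms of `w` in `P` -/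
abbrev Dp (P : Set ℂ) : TopCat.{0} := TopCat.of {p : T × ℂ // p.2 ∈ P ∧ ex p.2 = w p.1}

/-- the inclusion -/
def inc (h : P ⊆ Q) : Dp w P ⟶ Dp w Q :=
  TopCat.ofHom ⟨fun p => ⟨p.1, h p.2.1, p.2.2⟩, by fun_prop⟩

/-- the deck transformation -/
def sh (h : ∀ z ∈ P, z + 1 ∈ Q) : Dp w P ⟶ Dp w Q :=
  TopCat.ofHom ⟨fun p => ⟨(p.1.1, p.1.2 + 1), h _ p.2.1, (ex_add_one _).trans p.2.2⟩, by fun_prop⟩

/-- the projection -/
def prj (P : Set ℂ) : Dp w P ⟶ T := TopCat.ofHom ⟨fun p => p.1.1, by fun_prop⟩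

/-- the slice `w = 1` -/
def sl {Z : TopCat.{0}} (i : Z ⟶ T) (h : ∀ x, w (i x) = 1) (h0 : (0 : ℂ) ∈ P) : Z ⟶ Dp w P :=
  TopCat.ofHom ⟨fun x => ⟨(i x, 0), h0, ex_zero.trans (h x).symm⟩, by fun_prop⟩

/-- the upper half plane -/
def Up : Set ℂ := {z | 0 < z.im}

/-- the plane without the walls -/
structure Dom (Ω : Set ℂ) (ε : ℝ) : Prop where
  opn : IsOpen Ω
  pos : 0 < ε
  le : ε ≤ 1
  up : Up ⊆ Ω
  mid : ∀ z : ℂ, |z.re| < ε → z ∈ Ω
  rt : ∀ z : ℂ, 1 - ε < z.re → z.re < 1 → z ∈ Ω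

variable {Ω : Set ℂ} {ε : ℝ}

theorem Dom.up' (h : Dom Ω ε) : ∀ z ∈ Up, z + 1 ∈ Ω := fun z hz => h.up (by simpa [Up] using hz)

theorem Dom.zero (h : Dom Ω ε) : (0 : ℂ) ∈ Ω := h.mid 0 (by simpa using h.pos)

/-- The cohomology over `Ω` is the constant system `V`, and `U` is the deck transformation over
the upper half plane. -/
structure Mo (o : Dom Ω ε) {V : Type} [AddCommGroup V] [Module ℂ V]
    (ρ : V →ₗ[ℂ] H ℂ (Dp w Ω)) (U : Module.End ℂ V) : Prop where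
  ct : Continuous w
  cov : ∀ t, ∃ z ∈ Ω, 0 ≤ z.re ∧ z.re < 1 ∧ ex z = w t
  bij : ∀ P (h : P ⊆ Ω), Convex ℝ P → P.Nonempty → IsOpen P ∨ P = {0} →
    Bijective fun a => pb (inc w h) (ρ a)
  mon : ∀ a, pb (inc w o.up) (ρ (U a)) = pb (sh w o.up') (ρ a)

end Vale.Agent.P275TT
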