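import Vale.Agent.P275TT.Top

/-!
# P275, the Tate trick: local invariant cycles
-/

open scoped Real
open Set Function CategoryTheory Topology Filter
open P275S (H pb Nice pb_comp)

noncomputable section

set_option backward.isDefEq.respectTransparency false

namespace Vale.Agent.P275TT

theorem ex_ne (z : ℂ) : ex z ≠ 0 := Complex.exp_ne_zero _

theorem ex_inj {z z' : ℂ} (e : ex z = ex z') (h : |z.re - z'.re| < 1) : z = z' := by
  obtain ⟨k, rfl⟩ := ex_eq_iff.1 e
  have : |k| < 1 := by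
    rw [Complex.add_re, add_sub_cancel_left, Complex.intCast_re] at h
    exact_mod_cast h
  rw [Int.abs_lt_one_iff.1 this, Int.cast_zero, add_zero]

/-- a local logarithm -/
def lg (z u : ℂ) : ℂ := z + Complex.log (u / ex z) / (2 * π * Complex.I)

theorem lg_ex (z : ℂ) : lg z (ex z) = z := by
  rw [lg, div_self (ex_ne z), Complex.log_one, zero_div, add_zero]

theorem ex_lg (z : ℂ) {u : ℂ} (h : u ≠ 0) : ex (lg z u) = u := by
  rw [ex, lg, mul_add, mul_div_cancel₀ _ Complex.two_pi_I_ne_zero, Complex.exp_add,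
    Complex.exp_log (div_ne_zero h (ex_ne z))]
  exact mul_div_cancel₀ _ (ex_ne z)

theorem lg_cont (z : ℂ) : ContinuousAt (lg z) (ex z) :=
  continuousAt_const.add ((ContinuousAt.clog (by fun_prop)
    (by rw [div_self (ex_ne z)]; exact Complex.one_mem_slitPlane)).div_const _)

variable {T Z : TopCat.{0}} {w : T → ℂ} {P Q R : Set ℂ}

theorem nice_dp [Nice T] (hw : Continuous w) (h : IsLocallyClosed P) : Nice (Dp w P) :=
  ⟨IsLocallyClosed.locallyCompactSpace (s := {p : T × ℂ | p.2 ∈ P ∧ ex p.2 = w p.1})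
    ((h.preimage continuous_snd).inter (isClosed_eq (cont_ex.comp continuous_snd)
      (hw.comp continuous_fst)).isLocallyClosed), inferInstance,
    inferInstanceAs (SecondCountableTopology {p : T × ℂ | p.2 ∈ P ∧ ex p.2 = w p.1})⟩

theorem prj_open (hw : Continuous w) (hP : IsOpen P) : IsOpenMap (prj w P) :=
  isOpenMap_iff_nhds_le.2 fun p N hN => by
    obtain ⟨s, hs, hN⟩ := mem_map_iff_exists_image.1 hN
    obtain ⟨N', hN', hs⟩ := (mem_nhds_subtype _ _ _).1 hs
    have c : ContinuousAt (fun t => lg p.1.2 (w t)) p.1.1 :=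
      ContinuousAt.comp (g := lg p.1.2) (p.2.2 ▸ lg_cont p.1.2) hw.continuousAt
    have e : lg p.1.2 (w p.1.1) = p.1.2 := p.2.2 ▸ lg_ex _
    filter_upwards [(continuousAt_id.prodMk c).preimage_mem_nhds (t := N') (by rw [e]; exact hN'),
      c.preimage_mem_nhds (t := P) (by rw [e]; exact hP.mem_nhds p.2.1),
      hw.continuousAt.eventually_ne (x := p.1.1) (p.2.2 ▸ ex_ne _)] with t h1 h2 h3
    exact hN ⟨⟨(t, lg p.1.2 (w t)), h2, ex_lg _ h3⟩, hs h1, rfl⟩

theorem prj_oe (hw : Continuous w) (hP : IsOpen P) (h : ∀ z ∈ P, ∀ z' ∈ P, |z.re - z'.re| < 1) :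
    IsOpenEmbedding (prj w P) :=
  .of_continuous_injective_isOpenMap (prj w P).hom.continuous (fun p q e => by
    have e : p.1.1 = q.1.1 := e
    exact Subtype.ext (Prod.ext e (ex_inj (by rw [p.2.2, q.2.2, e]) (h _ p.2.1 _ q.2.1))))
    (prj_open hw hP)

theorem range_prj : range (prj w P) = {t | ∃ z ∈ P, ex z = w t} :=
  ext fun t => ⟨fun ⟨p, h⟩ => h ▸ ⟨_, p.2⟩, fun ⟨z, h⟩ => ⟨⟨(t, z), h⟩, rfl⟩⟩

/-- the vertical strip -/
def St (a b : ℝ) : Set ℂ := {z | a < z.re ∧ z.re < b}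

theorem St.opn (a b : ℝ) : IsOpen (St a b) := isOpen_Ioo.preimage Complex.continuous_re

theorem St.cvx (a b : ℝ) : Convex ℝ (St a b) :=
  (convex_halfSpace_re_gt a).inter (convex_halfSpace_re_lt b)

theorem opn_up : IsOpen Up := isOpen_lt continuous_const Complex.continuous_im

theorem cvx_up : Convex ℝ Up := convex_halfSpace_im_gt 0

theorem St.ne {a b : ℝ} (h : a < b) : (St a b ∩ Up).Nonempty :=
  ⟨⟨(a + b) / 2, 1⟩, ⟨left_lt_add_div_two.2 h, add_div_two_lt_right.2 h⟩, show (0 : ℝ) < 1 from one_pos⟩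

variable {Ω : Set ℂ} {ε : ℝ} {o : Dom Ω ε} {V : Type} [AddCommGroup V] [Module ℂ V]
  {ρ : V →ₗ[ℂ] H ℂ (Dp w Ω)} {U : Module.End ℂ V}

/-- a class over a strip is determined by its restriction to the upper half plane -/
theorem Mo.strip (m : Mo w o ρ U) {a b : ℝ} (h : a < b) (hs : St a b ⊆ Ω) {x : H ℂ (Dp w (St a b))}
    {v : V} (e : pb (inc w inter_subset_left) x = pb (inc w (inter_subset_right.trans o.up)) (ρ v)) :
    x = pb (inc w hs) (ρ v) := by
  obtain ⟨u, rfl⟩ := (m.bij _ hs (St.cvx a b) ((St.ne h).mono inter_subset_left)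
    (.inl (St.opn a b))).2 x
  rw [pb_comp] at e
  exact congrArg (fun v => pb (inc w hs) (ρ v)) ((m.bij _ (inter_subset_right.trans o.up)
    ((St.cvx a b).inter cvx_up) (St.ne h) (.inl ((St.opn a b).inter opn_up))).1 e)

theorem Dom.st (o : Dom Ω ε) {a b : ℝ} (ha : -ε ≤ a) (hb : b ≤ ε) : St a b ⊆ Ω :=
  fun z hz => o.mid z (abs_lt.2 ⟨ha.trans_lt hz.1, hz.2.trans_le hb⟩)

variable (i : Z ⟶ T) (h : ∀ x, w (i x) = 1)

/-- global classes are invariant -/
theorem Mo.inv (m : Mo w o ρ U) (c : H ℂ T) :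
    ∃ a, U a = a ∧ pb (sl w i h o.zero) (ρ a) = pb i c := by
  have b := m.bij _ o.up cvx_up ⟨Complex.I, show (0 : ℝ) < 1 from one_pos⟩ (.inl opn_up)
  obtain ⟨a, ha⟩ := b.2 (pb (prj w Up) c)
  have u : ∀ z ∈ Up, z + 1 ∈ Up := fun z hz => by simpa [Up] using hz
  refine ⟨a, b.1 ?_, ?_⟩
  · have := congrArg (pb (sh w u)) ha
    rw [pb_comp, pb_comp] at this
    exact (m.mon a).trans (this.trans ha.symm)
  · have := m.strip (neg_lt_self o.pos) (o.st le_rfl le_rfl) (x := pb (prj w _) c) (v := a) (by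
      have := congrArg (pb (inc w (inter_subset_right (s := St (-ε) ε)))) ha
      rw [pb_comp, pb_comp] at this
      rw [pb_comp]
      exact this.symm)
    have := congrArg (pb (sl w i h (P := St (-ε) ε) ⟨neg_lt_zero.2 o.pos, o.pos⟩)) this
    rw [pb_comp, pb_comp] at this
    exact this.symm

/-- the map from a disjoint union -/
def cop {X Y W : TopCat.{0}} (f : X ⟶ W) (g : Y ⟶ W) : TopCat.of (X ⊕ Y) ⟶ W :=
  TopCat.ofHom ⟨Sum.elim f g, f.hom.continuous.sumElim g.hom.continuous⟩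

/-- invariant classes are global -/
theorem Mo.glob [Nice T] (m : Mo w o ρ U) {a : V} (ha : U a = a) :
    ∃ c, pb (sl w i h o.zero) (ρ a) = pb i c := by
  have p := o.pos
  have l := o.le
  have s₀ : St (-(ε / 2)) 0 ⊆ St (-(ε / 2)) (1 - ε / 2) ∩ Ω := fun z hz =>
    ⟨⟨hz.1, by linarith [hz.2]⟩, o.st (by linarith) p.le hz⟩
  have s₁ : ∀ z ∈ St (-ε) (-(ε / 2)), z + 1 ∈ St (-(ε / 2)) (1 - ε / 2) ∩ Ω := fun z hz => by
    have : (z + 1).re = z.re + 1 := rfl
    exact ⟨⟨by linarith [hz.1], by linarith [hz.2]⟩, o.rt _ (by linarith [hz.1]) (by linarith [hz.2])⟩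
  have t₀ : St (-(ε / 2)) 0 ⊆ St (-ε) 0 := fun z hz => ⟨by linarith [hz.1], hz.2⟩
  have t₁ : St (-ε) (-(ε / 2)) ⊆ St (-ε) 0 := fun z hz => ⟨hz.1, by linarith [hz.2]⟩
  have oe : ∀ {a b : ℝ} {P : Set ℂ}, b ≤ a + 1 → IsOpen P → P ⊆ St a b →
      IsOpenEmbedding (prj w P) := fun e hP hs => prj_oe m.ct hP fun z hz z' hz' =>
    abs_lt.2 ⟨by linarith [(hs hz).1, (hs hz').2], by linarith [(hs hz).2, (hs hz').1]⟩
  have j₂ := oe (by linarith) (St.opn (-ε) 0) Subset.rfl
  have k : IsOpenEmbedding (cop (prj w _) (prj w _)) :=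
    (oe (by linarith) (St.opn _ _) t₀).sumElim (oe (by linarith) (St.opn _ _) t₁) (by
      rintro (x | x) (y | y) e
      · exact congrArg _ (Subtype.ext (congrArg (·.1) (j₂.injective (a₁ := inc w t₀ x)
          (a₂ := inc w t₀ y) e) :))
      · have := congrArg (·.1.2.re) (j₂.injective (a₁ := inc w t₀ x) (a₂ := inc w t₁ y) e)
        exact absurd (x.2.1.1.trans_eq this) y.2.1.2.not_gt
      · have := congrArg (·.1.2.re) (j₂.injective (a₁ := inc w t₀ y) (a₂ := inc w t₁ x) e.symm)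
        exact absurd (y.2.1.1.trans_eq this) x.2.1.2.not_gt
      · exact congrArg _ (Subtype.ext (congrArg (·.1) (j₂.injective (a₁ := inc w t₁ x)
          (a₂ := inc w t₁ y) e) :)))
  have e : cop (inc w s₀) (sh w s₁) ≫ prj w _ = cop (prj w _) (prj w _) := by
    ext (x | x) <;> rfl
  have e' : cop (inc w t₀) (inc w t₁) ≫ prj w _ = cop (prj w _) (prj w _) := by
    ext (x | x) <;> rfl
  have : Nice (TopCat.of (Dp w (St (-(ε / 2)) 0) ⊕ Dp w (St (-ε) (-(ε / 2))))) :=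
    ⟨k.locallyCompactSpace, k.isEmbedding.t2Space, k.isEmbedding.secondCountableTopology⟩
  obtain ⟨c, hc, -⟩ := P275S.exists_mv_glue (k := ℂ) (oe (a := -(ε / 2)) (by linarith)
    ((St.opn _ _).inter o.opn) inter_subset_left) j₂ (eq_univ_of_forall fun t => by
      obtain ⟨z, hz, h0, h1, e⟩ := m.cov t
      rw [range_prj, range_prj]
      by_cases h2 : z.re < 1 - ε / 2
      · exact .inl ⟨z, ⟨⟨by linarith, h2⟩, hz⟩, e⟩
      · have : (z - 1).re = z.re - 1 := rfl
        exact .inr ⟨z - 1, ⟨by linarith, by linarith⟩, by rw [← ex_add_one, sub_add_cancel, e]⟩)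
    (e.trans e'.symm) (e ▸ k.isInducing) (by
      rw [e, range_prj, range_prj]
      rintro t ⟨⟨z, hz, e⟩, z', hz', e'⟩
      rcases lt_trichotomy z'.re (-(ε / 2)) with h2 | h2 | h2
      · exact ⟨.inr ⟨(t, z'), ⟨hz'.1, h2⟩, e'⟩, rfl⟩
      · have := ex_inj (e.trans e'.symm) (abs_lt.2 ⟨by linarith [hz.1.1], by linarith [hz.1.2]⟩)
        exact absurd (hz.1.1.trans_eq (this ▸ h2)) (lt_irrefl _)
      · exact ⟨.inl ⟨(t, z'), ⟨h2, hz'.2⟩, e'⟩, rfl⟩)
    (a₁ := pb (inc w inter_subset_right) (ρ a)) (a₂ := pb (inc w (o.st le_rfl p.le)) (ρ a)) (by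
      refine sub_eq_zero.1 (P275S.eq_zero_of_disj₂
        (j₁ := TopCat.ofHom ⟨Sum.inl, continuous_inl⟩) (j₂ := TopCat.ofHom ⟨Sum.inr, continuous_inr⟩)
        IsOpenEmbedding.inl IsOpenEmbedding.inr range_inl_union_range_inr
        isCompl_range_inl_range_inr.disjoint ?_ ?_) <;>
      rw [map_sub, pb_comp, pb_comp, pb_comp, pb_comp, sub_eq_zero]
      · rfl
      · refine m.strip (by linarith) (t₁.trans (o.st le_rfl p.le)) ?_
        have := congrArg (pb (inc w (inter_subset_right (s := St (-ε) (-(ε / 2)))))) (m.mon a)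
        rw [ha, pb_comp, pb_comp] at this
        rw [pb_comp]
        exact this.symm)
  have := congrArg (pb (sl w i h (P := St (-(ε / 2)) (1 - ε / 2) ∩ Ω)
    ⟨⟨neg_lt_zero.2 (by linarith), show (0 : ℝ) < _ by linarith⟩, o.zero⟩)) hc
  rw [pb_comp, pb_comp] at this
  exact ⟨c, this.symm⟩

theorem pb_homeo {X Y : TopCat.{0}} {f : X ⟶ Y} (hi : IsEmbedding f) (hs : Surjective f) :
    Bijective (pb (k := ℂ) f) := by
  let g : Y ⟶ X := TopCat.ofHom ⟨_, (hi.toHomeomorphOfSurjective hs).symm.continuous⟩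
  have e : g ≫ f = 𝟙 Y := by ext y; exact (hi.toHomeomorphOfSurjective hs).apply_symm_apply y
  have e' : f ≫ g = 𝟙 X := by ext x; exact (hi.toHomeomorphOfSurjective hs).symm_apply_apply x
  exact bijective_iff_has_inverse.2 ⟨pb g, fun a => by rw [pb_comp, e, P275S.pb_id],
    fun a => by rw [pb_comp, e', P275S.pb_id]⟩

theorem sl_bij (hi : IsEmbedding i) (hr : ∀ t, w t = 1 → t ∈ range i) :
    Bijective (pb (k := ℂ) (sl w i h (mem_singleton 0))) :=
  pb_homeo (.of_comp (sl w i h _).hom.continuous (prj w _).hom.continuous hi) fun p => by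
    obtain ⟨x, hx⟩ := hr p.1.1 (by rw [← p.2.2, show p.1.2 = 0 from p.2.1, ex_zero])
    exact ⟨x, Subtype.ext (Prod.ext hx (Eq.symm p.2.1))⟩

/-- the slice is the fibre -/
theorem Mo.slice (m : Mo w o ρ U) (hi : IsEmbedding i) (hr : ∀ t, w t = 1 → t ∈ range i) :
    Bijective fun a => pb (sl w i h o.zero) (ρ a) := by
  have h0 : {0} ⊆ Ω := singleton_subset_iff.2 o.zero
  have e : (fun a => pb (sl w i h o.zero) (ρ a)) =
      pb (sl w i h (mem_singleton 0)) ∘ fun a => pb (inc w h0) (ρ a) :=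
    funext fun a => (pb_comp (sl w i h (mem_singleton 0)) (inc w h0) (ρ a)).symm
  rw [e]
  exact (sl_bij i h hi hr).comp
    (m.bij _ h0 (convex_singleton 0) (singleton_nonempty 0) (.inr rfl))

end Vale.Agent.P275TT
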